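import Vale.Agent.P038.H139.NF

/-!
# P038 (H71): deletion lemma and the plan inequality for all subsets

For a set `X` put `L = N⁺(X) \ X` and `d(T) = w(N⁺[T] \ X) - (1+lam) w(T)` for `T ⊆ L`.

* `del_row_in`, `del_row_out`: deleting all arcs from `X` to `L \ T` changes the row of `y ∈ X` by at
  least `d(T ∪ (N⁺(y) ∩ (L \ T))) - d(T)` and never lowers the other rows (any `w ≥ 0`).
* `plan`: in an optimal counterexample `d(L) ≤ d(T)` for all `T ⊆ L`.
* `plan_lt`: with the fewest arcs `d(L) < d(T)` for all `T ⊂ L`; `pplus` is the form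
  `w(N⁺[L] \ (N⁺[L \ O] ∪ X)) < (1+lam) w(O)` for nonempty `O ⊆ L`.
-/

namespace Vale.Agent.P038.H71

open Finset Vale.Agent.P038.H139

universe u

variable {V : Type u} [Fintype V]

/-- `L(X) = N⁺(X) \ X`. -/
noncomputable def Lx [DecidableEq V] (D : OGraph V) (X : Finset V) : Finset V := outS D X \ X

/-- `d(T) = w(N⁺[T] \ X) - (1+lam) w(T)`. -/
noncomputable def dd [DecidableEq V] (lam : ℝ) (D : OGraph V) (w : V → ℝ) (X T : Finset V) : ℝ :=
  W w (cl D T \ X) - (1 + lam) * W w T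

/-- The other rows do not get worse when arcs out of `X` are deleted. -/
theorem del_row_out {lam : ℝ} {D : OGraph V} {w : V → ℝ} (hw : ∀ v, 0 ≤ w v)
    (X Z : Finset V) {y : V} (hy : y ∉ X) : Fw lam D w y ≤ Fw lam (del D X Z) w y := by
  have h1 : N1 (del D X Z) y = N1 D y := by
    ext z
    rw [mem_N1, mem_N1]
    exact ⟨fun h3 => h3.1, fun h3 => ⟨h3, fun h4 => hy h4.1⟩⟩
  have h2 : N2 (del D X Z) y ⊆ N2 D y := by
    intro z hz
    rw [mem_N2] at hz ⊢
    obtain ⟨hzv, hnz, c, hvc, hcz⟩ := hz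
    exact ⟨hzv, fun h3 => hnz ⟨h3, fun h4 => hy h4.1⟩, c, hvc.1, hcz.1⟩
  have h3 := W_mono hw h2
  unfold Fw
  rw [h1]
  linarith

/-- The row of `y ∈ X` after the deletion of all arcs from `X` to `L \ T`. -/
theorem del_row_in [DecidableEq V] {lam : ℝ} {D : OGraph V} {w : V → ℝ} (hw : ∀ v, 0 ≤ w v)
    (X T : Finset V) {y : V} (hy : y ∈ X) :
    Fw lam D w y + (dd lam D w X (T ∪ (N1 D y ∩ (Lx D X \ T))) - dd lam D w X T) ≤
      Fw lam (del D X (Lx D X \ T)) w y := by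
  set L := Lx D X with hL
  have hL' : L = outS D X \ X := hL
  set Z := L \ T with hZ
  set D' := del D X Z with hD'
  set Dy := N1 D y ∩ Z with hDy
  set Ey := cl D Dy \ (cl D T ∪ X) with hEy
  have hN1 : N1 D' y = N1 D y \ Dy := by
    ext z
    rw [mem_N1, Finset.mem_sdiff, hDy, Finset.mem_inter, mem_N1]
    constructor
    · rintro ⟨h1, h2⟩
      exact ⟨h1, fun h3 => h2 ⟨hy, h3.2⟩⟩
    · rintro ⟨h1, h2⟩
      exact ⟨h1, fun h3 => h2 ⟨h1, h3.2⟩⟩
  have hEsub : Ey ⊆ N2 D y ∪ Dy := by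
    intro z hz
    obtain ⟨hz1, hz2⟩ := Finset.mem_sdiff.1 hz
    have hzX : z ∉ X := fun h3 => hz2 (Finset.mem_union_right _ h3)
    have hzT : z ∉ cl D T := fun h3 => hz2 (Finset.mem_union_left _ h3)
    rw [mem_cl] at hz1
    rcases hz1 with hz1 | ⟨c, hc, hcz⟩
    · exact Finset.mem_union_right _ hz1
    · have hyc : D.arc y c := mem_N1.1 (Finset.mem_inter.1 hc).1
      by_cases hyz : D.arc y z
      · refine Finset.mem_union_right _ (Finset.mem_inter.2 ⟨mem_N1.2 hyz, ?_⟩)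
        refine Finset.mem_sdiff.2 ⟨?_, ?_⟩
        · rw [hL']
          exact Finset.mem_sdiff.2 ⟨mem_outS.2 ⟨y, hy, hyz⟩, hzX⟩
        · intro h3
          exact hzT (mem_cl.2 (Or.inl h3))
      · refine Finset.mem_union_left _ (mem_N2.2 ⟨?_, hyz, c, hyc, hcz⟩)
        rintro rfl
        exact hzX hy
  have hN2 : N2 D' y ⊆ (N2 D y ∪ Dy) \ Ey := by
    intro z hz
    rw [mem_N2] at hz
    obtain ⟨hzy, hnz, c, hyc, hcz⟩ := hz
    refine Finset.mem_sdiff.2 ⟨?_, ?_⟩
    · by_cases hyz : D.arc y z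
      · refine Finset.mem_union_right _ (Finset.mem_inter.2 ⟨mem_N1.2 hyz, ?_⟩)
        by_contra hzZ
        exact hnz ⟨hyz, fun h3 => hzZ h3.2⟩
      · exact Finset.mem_union_left _ (mem_N2.2 ⟨hzy, hyz, c, hyc.1, hcz.1⟩)
    · intro hzE
      obtain ⟨_, hz2⟩ := Finset.mem_sdiff.1 hzE
      have hzX : z ∉ X := fun h3 => hz2 (Finset.mem_union_right _ h3)
      have hzT : z ∉ cl D T := fun h3 => hz2 (Finset.mem_union_left _ h3)
      by_cases hcX : c ∈ X
      · have hzL : z ∈ L := by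
          rw [hL']
          exact Finset.mem_sdiff.2 ⟨mem_outS.2 ⟨c, hcX, hcz.1⟩, hzX⟩
        have hzZ : z ∈ Z := Finset.mem_sdiff.2 ⟨hzL, fun h3 => hzT (mem_cl.2 (Or.inl h3))⟩
        exact hcz.2 ⟨hcX, hzZ⟩
      · have hcL : c ∈ L := by
          rw [hL']
          exact Finset.mem_sdiff.2 ⟨mem_outS.2 ⟨y, hy, hyc.1⟩, hcX⟩
        have hcT : c ∈ T := by
          by_contra hcT
          exact hyc.2 ⟨hy, Finset.mem_sdiff.2 ⟨hcL, hcT⟩⟩
        exact hzT (mem_cl.2 (Or.inr ⟨c, hcT, hcz.1⟩))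
  have h1 := W_mono hw hN2
  rw [W_sdiff hEsub, W_union (by
    rw [Finset.disjoint_left]
    intro z hz hz'
    exact (mem_N2.1 hz).2.1 (mem_N1.1 (Finset.mem_inter.1 hz').1))] at h1
  have h2 : W w (N1 D' y) = W w (N1 D y) - W w Dy := by
    rw [hN1, W_sdiff Finset.inter_subset_left]
  have hDT : Disjoint T Dy := by
    rw [Finset.disjoint_left]
    intro z hz hz'
    exact (Finset.mem_sdiff.1 (Finset.mem_inter.1 hz').2).2 hz
  have e1 : cl D (T ∪ Dy) \ X = (cl D T \ X) ∪ (cl D Dy \ (cl D T ∪ X)) := by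
    rw [cl_union]
    ext z
    simp only [Finset.mem_sdiff, Finset.mem_union]
    tauto
  have e2 : Disjoint (cl D T \ X) (cl D Dy \ (cl D T ∪ X)) := by
    rw [Finset.disjoint_left]
    intro z hz hz'
    exact (Finset.mem_sdiff.1 hz').2 (Finset.mem_union_left _ (Finset.mem_sdiff.1 hz).1)
  have h3 : dd lam D w X (T ∪ Dy) - dd lam D w X T = W w Ey - (1 + lam) * W w Dy := by
    unfold dd
    rw [e1, W_union e2, W_union hDT]
    ring
  rw [h3]
  unfold Fw
  rw [h2]
  nlinarith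

/-- If `T ⊆ L` minimises `d` among the sets between `T` and `L`, the deletion is harmless. -/
theorem del_rows [DecidableEq V] {lam : ℝ} {D : OGraph V} {w : V → ℝ} (hw : ∀ v, 0 ≤ w v)
    (h1 : ∀ v, 1 ≤ Fw lam D w v) (X T : Finset V) (hT : T ⊆ Lx D X)
    (hmin : ∀ S, T ⊆ S → S ⊆ Lx D X → dd lam D w X T ≤ dd lam D w X S) (v : V) :
    1 ≤ Fw lam (del D X (Lx D X \ T)) w v := by
  by_cases hv : v ∈ X
  · have h2 := del_row_in (lam := lam) (D := D) hw X T hv
    have h3 := hmin (T ∪ (N1 D v ∩ (Lx D X \ T))) Finset.subset_union_left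
      (Finset.union_subset hT (Finset.inter_subset_right.trans Finset.sdiff_subset))
    have h4 := h1 v
    linarith
  · exact (h1 v).trans (del_row_out hw X _ hv)

/-- The plan inequality for all subsets `T` of `L = N⁺(X) \ X`. -/
theorem plan [DecidableEq V] {lam : ℝ} {D : OGraph V} {w : V → ℝ} (h : Opt lam D w)
    (X T : Finset V) (hT : T ⊆ Lx D X) : dd lam D w X (Lx D X) ≤ dd lam D w X T := by
  classical
  set L := Lx D X with hL
  set d := dd lam D w X with hd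
  by_contra hcon
  push Not at hcon
  obtain ⟨T0, hT0, hT0min⟩ := Finset.exists_min_image L.powerset d ⟨∅, Finset.empty_mem_powerset _⟩
  obtain ⟨T1, hT1, hT1max⟩ := Finset.exists_max_image (L.powerset.filter fun T => d T = d T0)
    Finset.card ⟨T0, Finset.mem_filter.2 ⟨hT0, rfl⟩⟩
  obtain ⟨hT1L, hT1d⟩ := Finset.mem_filter.1 hT1
  rw [Finset.mem_powerset] at hT1L
  have hmin : ∀ S ⊆ L, d T1 ≤ d S := by
    intro S hS
    rw [hT1d]
    exact hT0min S (Finset.mem_powerset.2 hS)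
  have hstrict : ∀ S ⊆ L, T1 ⊂ S → d T1 < d S := by
    intro S hS hTS
    rcases lt_or_eq_of_le (hmin S hS) with h1 | h1
    · exact h1
    · exfalso
      have := hT1max S (Finset.mem_filter.2 ⟨Finset.mem_powerset.2 hS, h1.symm.trans hT1d⟩)
      have h2 := Finset.card_lt_card hTS
      omega
  have hTne : T1 ≠ L := by
    intro hTe
    have h1 := hmin T hT
    rw [hTe] at h1
    linarith
  have hall := del_rows h.nonneg (fun v => (h.one v).ge) X T1 hT1L (fun S _ hS => hmin S hS)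
  -- a row which really changes
  obtain ⟨z, hzL, hzT⟩ : ∃ z ∈ L, z ∉ T1 := by
    by_contra hc
    push Not at hc
    exact hTne (Finset.Subset.antisymm hT1L hc)
  have hzL' : z ∈ outS D X \ X := hzL
  obtain ⟨y, hy, hyz⟩ := mem_outS.1 (Finset.mem_sdiff.1 hzL').1
  have hzD : z ∈ N1 D y ∩ (L \ T1) :=
    Finset.mem_inter.2 ⟨mem_N1.2 hyz, Finset.mem_sdiff.2 ⟨hzL, hzT⟩⟩
  have h2 := hstrict (T1 ∪ (N1 D y ∩ (L \ T1)))
    (Finset.union_subset hT1L (Finset.inter_subset_right.trans Finset.sdiff_subset))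
    (by
      refine Finset.ssubset_iff_subset_ne.2 ⟨Finset.subset_union_left, fun he => hzT ?_⟩
      rw [he]
      exact Finset.mem_union_right _ hzD)
  have h3 := del_row_in (lam := lam) (D := D) h.nonneg X T1 hy
  rw [h.one y] at h3
  exact h.not_lt hall y (by linarith)

theorem numArcs_lt_del [DecidableEq V] {D : OGraph V} {X Z : Finset V} {y z : V} (hy : y ∈ X)
    (hz : z ∈ Z) (hyz : D.arc y z) : numArcs (del D X Z) < numArcs D := by
  unfold numArcs
  have hsub : ∀ v, N1 (del D X Z) v ⊆ N1 D v := by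
    intro v x hx
    rw [mem_N1] at hx ⊢
    exact hx.1
  refine Finset.sum_lt_sum (fun v _ => Finset.card_le_card (hsub v)) ⟨y, Finset.mem_univ _, ?_⟩
  refine Finset.card_lt_card (Finset.ssubset_iff_subset_ne.2 ⟨hsub y, fun he => ?_⟩)
  have h1 : z ∈ N1 (del D X Z) y := by
    rw [he]
    exact mem_N1.2 hyz
  exact (mem_N1.1 h1).2 ⟨hy, hz⟩

/-- The strict plan inequality in the normal form with the fewest arcs. -/
theorem plan_lt [DecidableEq V] {lam : ℝ} {D : OGraph V} {w : V → ℝ} (h : NFmin lam D w)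
    (X T : Finset V) (hT : T ⊂ Lx D X) : dd lam D w X (Lx D X) < dd lam D w X T := by
  classical
  have hopt := h.toNF.toOpt
  rcases lt_or_eq_of_le (plan hopt X T hT.1) with h1 | h1
  · exact h1
  exfalso
  have hall := del_rows hopt.nonneg (fun v => (hopt.one v).ge) X T hT.1 (fun S _ hS => by
    rw [← h1]
    exact plan hopt X S hS)
  have h2 := h.arcs_le _ hall
  obtain ⟨z, hzL, hzT⟩ := Finset.exists_of_ssubset hT
  have hzL' : z ∈ outS D X \ X := hzL
  obtain ⟨y, hy, hyz⟩ := mem_outS.1 (Finset.mem_sdiff.1 hzL').1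
  have h3 := numArcs_lt_del (D := D) (Z := Lx D X \ T) hy (Finset.mem_sdiff.2 ⟨hzL, hzT⟩) hyz
  omega

theorem dd_sub [DecidableEq V] {lam : ℝ} {D : OGraph V} {w : V → ℝ} (X : Finset V)
    {O L : Finset V} (hO : O ⊆ L) :
    dd lam D w X L - dd lam D w X (L \ O) =
      W w (cl D L \ (cl D (L \ O) ∪ X)) - (1 + lam) * W w O := by
  have h1 : W w (L \ O) = W w L - W w O := W_sdiff hO
  have hsub : cl D (L \ O) ⊆ cl D L := by
    intro z hz
    rw [mem_cl] at hz ⊢
    rcases hz with hz | ⟨y, hy, hyz⟩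
    · exact Or.inl (Finset.mem_sdiff.1 hz).1
    · exact Or.inr ⟨y, (Finset.mem_sdiff.1 hy).1, hyz⟩
  have e1 : cl D L \ (cl D (L \ O) ∪ X) = (cl D L \ X) \ (cl D (L \ O) \ X) := by
    ext z
    simp only [Finset.mem_sdiff, Finset.mem_union]
    tauto
  have h2 : W w (cl D L \ (cl D (L \ O) ∪ X)) = W w (cl D L \ X) - W w (cl D (L \ O) \ X) := by
    rw [e1]
    exact W_sdiff (Finset.sdiff_subset_sdiff hsub (Finset.Subset.refl _))
  unfold dd
  rw [h1, h2]
  ring

/-- (P): `w(N⁺[L] \ (N⁺[L \ O] ∪ X)) ≤ (1+lam) w(O)` for `O ⊆ L = N⁺(X) \ X`. -/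
theorem pweak [DecidableEq V] {lam : ℝ} {D : OGraph V} {w : V → ℝ} (h : Opt lam D w)
    (X O : Finset V) (hO : O ⊆ Lx D X) :
    W w (cl D (Lx D X) \ (cl D (Lx D X \ O) ∪ X)) ≤ (1 + lam) * W w O := by
  have h1 := plan h X (Lx D X \ O) Finset.sdiff_subset
  have h2 := dd_sub (lam := lam) (D := D) (w := w) X hO
  linarith

/-- (P+): strict in the normal form with the fewest arcs, for nonempty `O ⊆ L`. -/
theorem pplus [DecidableEq V] {lam : ℝ} {D : OGraph V} {w : V → ℝ} (h : NFmin lam D w)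
    (X O : Finset V) (hO : O ⊆ Lx D X) (hne : O.Nonempty) :
    W w (cl D (Lx D X) \ (cl D (Lx D X \ O) ∪ X)) < (1 + lam) * W w O := by
  have h1 := plan_lt h X (Lx D X \ O) (by
    refine Finset.ssubset_iff_subset_ne.2 ⟨Finset.sdiff_subset, fun he => ?_⟩
    obtain ⟨z, hz⟩ := hne
    have h3 : z ∈ Lx D X \ O := by
      rw [he]
      exact hO hz
    exact (Finset.mem_sdiff.1 h3).2 hz)
  have h2 := dd_sub (lam := lam) (D := D) (w := w) X hO
  linarith

end Vale.Agent.P038.H71
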