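import Vale.Agent.P038.H71.Plan

/-!
# P038 (H71): additions to one row, and the two-step closure lemma

* `addA`: (A) `(1+lam) w(Y) ≤ w(N⁺[Y] \ N⁺[N⁺(q)])` for `Y ⊆ R(q) \ N⁺(q)`, in every optimal
  counterexample.
* `closure`: (CL2) of 889 / 567 / 379 / 904 in the normal form with the fewest arcs.
-/

namespace Vale.Agent.P038.H71

open Finset Vale.Agent.P038.H139

universe u

variable {V : Type u} [Fintype V]

/-- (A): a set of admissible additions to the row of `q` costs at least what it gains. -/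
theorem addA [DecidableEq V] {lam : ℝ} {D : OGraph V} {w : V → ℝ} (h : Opt lam D w) (q : V)
    (Y : Finset V) (hY : ∀ y ∈ Y, InR D q y ∧ ¬ D.arc q y) :
    (1 + lam) * W w Y ≤ W w (cl D Y \ cl D (N1 D q)) := by
  have h1 := step4 h q (N1 D q ∪ Y) (by
    intro y hy
    rcases Finset.mem_union.1 hy with hy | hy
    · exact inR_of_arc (mem_N1.1 hy)
    · exact (hY y hy).1)
  have hdis : Disjoint (N1 D q) Y := by
    rw [Finset.disjoint_left]
    intro z hz hzY
    exact (hY z hzY).2 (mem_N1.1 hz)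
  have hcl : cl D (N1 D q ∪ Y) = cl D (N1 D q) ∪ (cl D Y \ cl D (N1 D q)) := by
    rw [cl_union]
    ext z
    simp only [Finset.mem_union, Finset.mem_sdiff]
    tauto
  have hd2 : Disjoint (cl D (N1 D q)) (cl D Y \ cl D (N1 D q)) := Finset.disjoint_sdiff
  have h2 : (1 + lam) * W w (N1 D q) - W w (cl D (N1 D q)) = 1 := by
    have hcq : cl D (N1 D q) = N2 D q ∪ N1 D q := by
      ext z
      rw [mem_cl, Finset.mem_union, mem_N2, mem_N1]
      constructor
      · rintro (hz | ⟨y, hy, hyz⟩)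
        · exact Or.inr (hz)
        · by_cases hqz : D.arc q z
          · exact Or.inr hqz
          · refine Or.inl ⟨?_, hqz, y, mem_N1.1 hy, hyz⟩
            rintro rfl
            exact D.asymm _ _ (mem_N1.1 hy) hyz
      · rintro (⟨_, _, c, hqc, hcz⟩ | hz)
        · exact Or.inr ⟨c, mem_N1.2 hqc, hcz⟩
        · exact Or.inl (hz)
    have hd3 : Disjoint (N2 D q) (N1 D q) := by
      rw [Finset.disjoint_left]
      intro z hz hz'
      exact (mem_N2.1 hz).2.1 (mem_N1.1 hz')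
    rw [hcq, W_union hd3]
    have h3 := h.one q
    unfold Fw at h3
    linarith
  rw [hcl, W_union hd2, W_union hdis] at h1
  linarith

/-- (CL2): let `Y` be admissible additions to the row of `q`, `Z = N⁺[Y] \ N⁺[N⁺(q)]`, and let `C`
contain `Y ∪ Z` and be closed under in-neighbours at the vertices outside `Y` which lie in `Z` or
have an arc into `Z`. Then all in-neighbours of all `x ∈ Y` lie in `C`. -/
theorem closure [DecidableEq V] {lam : ℝ} {D : OGraph V} {w : V → ℝ} (h : NFmin lam D w) (q : V)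
    (Y C : Finset V) (hY : ∀ y ∈ Y, InR D q y ∧ ¬ D.arc q y) (hYC : Y ⊆ C)
    (hZC : cl D Y \ cl D (N1 D q) ⊆ C)
    (hC : ∀ v ∈ C, v ∉ Y → (∃ z ∈ cl D Y \ cl D (N1 D q), z = v ∨ D.arc v z) →
      ∀ s, D.arc s v → s ∈ C) :
    ∀ x ∈ Y, ∀ s, D.arc s x → s ∈ C := by
  classical
  intro x hx s hsx
  by_contra hsC
  set X : Finset V := Finset.univ \ C with hX
  have mX : ∀ v, v ∈ X ↔ v ∉ C := fun v => by simp [hX]
  set O : Finset V := Y ∩ Lx D X with hO
  have hxL : x ∈ Lx D X := by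
    refine Finset.mem_sdiff.2 ⟨mem_outS.2 ⟨s, (mX s).2 hsC, hsx⟩, ?_⟩
    rw [mX]
    exact fun h1 => h1 (hYC hx)
  have hne : O.Nonempty := ⟨x, Finset.mem_inter.2 ⟨hx, hxL⟩⟩
  have h1 := pplus h X O Finset.inter_subset_right hne
  have h2 := addA h.toNF.toOpt q O (fun y hy => hY y (Finset.mem_inter.1 hy).1)
  have h3 : cl D O \ cl D (N1 D q) ⊆ cl D (Lx D X) \ (cl D (Lx D X \ O) ∪ X) := by
    intro z hz
    obtain ⟨hz1, hz2⟩ := Finset.mem_sdiff.1 hz
    have hzY : z ∈ cl D Y \ cl D (N1 D q) := by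
      refine Finset.mem_sdiff.2 ⟨?_, hz2⟩
      rw [mem_cl] at hz1 ⊢
      rcases hz1 with h4 | ⟨y, hy, hyz⟩
      · exact Or.inl (Finset.mem_inter.1 h4).1
      · exact Or.inr ⟨y, (Finset.mem_inter.1 hy).1, hyz⟩
    refine Finset.mem_sdiff.2 ⟨?_, ?_⟩
    · rw [mem_cl] at hz1 ⊢
      rcases hz1 with h4 | ⟨y, hy, hyz⟩
      · exact Or.inl (Finset.mem_inter.1 h4).2
      · exact Or.inr ⟨y, (Finset.mem_inter.1 hy).2, hyz⟩
    · intro h4
      rcases Finset.mem_union.1 h4 with h4 | h4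
      · -- an element `l` of `L \ O` with `z ∈ N[l]`
        obtain ⟨l, hl, hlz⟩ : ∃ l ∈ Lx D X \ O, z = l ∨ D.arc l z := by
          rw [mem_cl] at h4
          rcases h4 with h4 | ⟨y, hy, hyz⟩
          · exact ⟨z, h4, Or.inl rfl⟩
          · exact ⟨y, hy, Or.inr hyz⟩
        obtain ⟨hlL, hlO⟩ := Finset.mem_sdiff.1 hl
        have hlY : l ∉ Y := fun h5 => hlO (Finset.mem_inter.2 ⟨h5, hlL⟩)
        have hlL' : l ∈ outS D X \ X := hlL
        obtain ⟨h5, h6⟩ := Finset.mem_sdiff.1 hlL'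
        obtain ⟨t, ht, htl⟩ := mem_outS.1 h5
        have hlC : l ∈ C := by
          by_contra h7
          exact h6 ((mX l).2 h7)
        exact (mX t).1 ht (hC l hlC hlY ⟨z, hzY, hlz⟩ t htl)
      · exact (mX z).1 h4 (hZC hzY)
  have h4 := W_mono h.toNF.nonneg h3
  linarith

end Vale.Agent.P038.H71
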