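import Vale.Agent.P038.H71.Plan

/-!
# P038 (H71): definitions for the final step (outer pairs, erosion, balanced allocations)
-/

namespace Vale.Agent.P038.H71

open Finset Vale.Agent.P038.H139

universe u

variable {V : Type u} [Fintype V]

/-- `s = a` or `s → a`. -/
def nb (D : OGraph V) (s a : V) : Prop := s = a ∨ D.arc s a

/-- The `w ⊗ w` measure of a relation given by its rows. -/
noncomputable def rsz (w : V → ℝ) (R : V → Finset V) : ℝ := ∑ a, w a * W w (R a)

/-- Closed out-neighbourhoods of the rows. -/
noncomputable def clR (D : OGraph V) (R : V → Finset V) : V → Finset V := fun a => cl D (R a)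

open Classical in
/-- Erosion in the first coordinate. -/
noncomputable def er (D : OGraph V) (R : V → Finset V) : V → Finset V :=
  fun a => Finset.univ.filter fun x => ∀ s, nb D s a → x ∈ R s

/-- Feasible (outer) pairs. -/
structure Feas (D : OGraph V) (B C : V → Finset V) : Prop where
  f1 : ∀ a b, nb D a b → b ∈ B a
  f1' : ∀ a b, nb D a b → b ∈ C a
  f2 : ∀ a b, b ∈ B a → a ∈ C b → a = b

/-- The cost of a relation. -/
noncomputable def cost (D : OGraph V) (w : V → ℝ) (R : V → Finset V) : ℝ :=
  rsz w (clR D R) - rsz w R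

open Classical in
/-- The gap, by rows. -/
noncomputable def gapR (B C : V → Finset V) : V → Finset V :=
  fun a => Finset.univ.filter fun b => b ∉ B a ∧ a ∉ C b

open Classical in
/-- `P_a = cl(gap_a) \ cl(B_a)`; `Q^b = PR D C B b`. -/
noncomputable def PR (D : OGraph V) (B C : V → Finset V) : V → Finset V :=
  fun a => cl D (gapR B C a) \ cl D (B a)

/-- Total mass of all pairs plus the diagonal. -/
noncomputable def Tw (w : V → ℝ) : ℝ := (∑ v, w v) * (∑ v, w v) + ∑ v, w v * w v

/-- A balanced allocation: every supply `p ∈ P` gives its mass `w p` to demands `b ∈ G` with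
`r b p`, only to those with minimal load `y b / w b`. -/
structure Bal {V : Type u} [Fintype V] (r : V → V → Prop) (w : V → ℝ) (G P : Finset V)
    (f : V → V → ℝ) : Prop where
  nonneg : ∀ p b, 0 ≤ f p b
  supp : ∀ p b, f p b ≠ 0 → p ∈ P ∧ b ∈ G ∧ r b p
  total : ∀ p ∈ P, ∑ b, f p b = w p
  bal : ∀ p b s, 0 < f p b → s ∈ G → r s p → (∑ q, f q b) / w b ≤ (∑ q, f q s) / w s

end Vale.Agent.P038.H71
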